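import Mathlib
import Vale.Agent.P358G.FinalThm
import Vale.Agent.P358G.GEFinal

namespace Vale.Agent.Results.P358.AAllParametersCapacity

open Vale.Agent.P358h5 Vale.Agent.P358G Matrix
open scoped ComplexOrder

/-- Additivity of the Holevo capacity of the generalized amplitude damping channel, for ALL
parameters `γ, ν ∈ [0,1]`. With `t = (1-γ) q + γ ν`, `D = γ ((1-γ) (q-ν)² + ν (1-ν))` and
`G q = (h t - h ((1 + √(1 - 4 D)) / 2)) / log 2` (`gainExplicit`; `h` the binary entropy in nats, so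
`G` is in bits), there is `χ = max_{q ∈ [0,1]} G q` such that: every value `G q` is the Holevo
quantity of a two-state ensemble for one use of the channel; for every `n`, `n χ` is the greatest
Holevo quantity of finite ensembles of arbitrary (possibly entangled) states on `n` qubits for
`𝒜_{γ,ν}^{⊗n}` (`holevoValues γ ν n`), so `χ(𝒜^{⊗n}) = n χ(𝒜)`; and `χ` is the greatest value of
`(Holevo quantity on n qubits) / n` over all `n ≥ 1`, so `C(𝒜_{γ,ν}) = χ(𝒜_{γ,ν}) = max_q G q`. -/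
theorem result (γ ν : ℝ) (h0 : 0 ≤ γ) (h1 : γ ≤ 1) (hν0 : 0 ≤ ν) (hν1 : ν ≤ 1) :
    ∃ χ : ℝ,
      IsGreatest (gainExplicit γ ν '' Set.Icc (0 : ℝ) 1) χ ∧
      (∀ q ∈ Set.Icc (0 : ℝ) 1, ∃ (p : Fin 2 → ℝ) (ρ : Fin 2 → Matrix (Qb 1) (Qb 1) ℂ),
        (∀ a, 0 ≤ p a) ∧ ∑ a, p a = 1 ∧ (∀ a, (ρ a).PosSemidef) ∧ (∀ a, (ρ a).trace = 1) ∧
        holevoN γ ν 1 p ρ = gainExplicit γ ν q) ∧
      (∀ n : ℕ, IsGreatest (holevoValues γ ν n) (n * χ)) ∧
      IsGreatest {x : ℝ | ∃ n : ℕ, 1 ≤ n ∧ ∃ y ∈ holevoValues γ ν n, x = y / n} χ :=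
  capacity_formula (fun _ _ _ _ _ hH hG A C => geAt_all hH hG A C) h0 h1 hν0 hν1

end Vale.Agent.Results.P358.AAllParametersCapacity
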