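import Mathlib
import Vale.Agent.P358A.EntropyBound
import Vale.Agent.P358A.FinalAD

namespace Vale.Agent.Results.P358.AAmplitudeDampingCapacity

open Vale.Agent.P358h5 Matrix
open scoped ComplexOrder

/-- Additivity of the Holevo capacity of the amplitude damping channel: for `0 < γ < 1`, with
`G q = (h((1-γ) q) - h((1 + √(1 - (2 √(γ(1-γ)) q)²)) / 2)) / log 2` (`h` the binary entropy in nats,
so `G` is in bits), there is `χ = max_{q ∈ [0,1]} G q` such that every value `G q` is the Holevo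
quantity of a two-state ensemble for one use of the channel, and every finite ensemble of arbitrary
states on `n` qubits (possibly entangled) has Holevo quantity at most `n χ` for `𝒜_{γ,0}^{⊗n}`. So
`χ(𝒜_{γ,0}^{⊗n}) ≤ n χ(𝒜_{γ,0})`, `C(𝒜_{γ,0}) = χ(𝒜_{γ,0}) = max_q G q`. -/
theorem result (γ : ℝ) (h0 : 0 < γ) (h1 : γ < 1) :
    ∃ χ : ℝ,
      (∃ q ∈ Set.Icc (0 : ℝ) 1, χ = (Real.binEntropy ((1 - γ) * q) -
        Real.binEntropy ((1 + Real.sqrt (1 - (2 * Real.sqrt (γ * (1 - γ)) * q) ^ 2)) / 2)) / Real.log 2) ∧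
      (∀ q ∈ Set.Icc (0 : ℝ) 1, (Real.binEntropy ((1 - γ) * q) -
        Real.binEntropy ((1 + Real.sqrt (1 - (2 * Real.sqrt (γ * (1 - γ)) * q) ^ 2)) / 2)) / Real.log 2 ≤ χ) ∧
      (∀ q ∈ Set.Icc (0 : ℝ) 1, ∃ (p : Fin 2 → ℝ) (ρ : Fin 2 → Matrix (Qb 1) (Qb 1) ℂ),
        (∀ a, 0 ≤ p a) ∧ ∑ a, p a = 1 ∧ (∀ a, (ρ a).PosSemidef) ∧ (∀ a, (ρ a).trace = 1) ∧
        holevoN γ 0 1 p ρ = (Real.binEntropy ((1 - γ) * q) -
          Real.binEntropy ((1 + Real.sqrt (1 - (2 * Real.sqrt (γ * (1 - γ)) * q) ^ 2)) / 2)) / Real.log 2) ∧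
      (∀ (n : ℕ) (ι : Type) [Fintype ι] (p : ι → ℝ) (ρ : ι → Matrix (Qb n) (Qb n) ℂ),
        (∀ a, 0 ≤ p a) → ∑ a, p a = 1 → (∀ a, (ρ a).PosSemidef) → (∀ a, (ρ a).trace = 1) →
        holevoN γ 0 n p ρ ≤ n * χ) :=
  Vale.Agent.P358A.capacity_of_entropy_bound h0 h1
    (fun n X hX htr => Vale.Agent.P358A.entropy_bound h0.le h1.le n X hX htr)

end Vale.Agent.Results.P358.AAmplitudeDampingCapacity
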